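import Vale.Agent.P050.H936.Defs2

/-!
Statement-level definitions: paths with one vertex doubled.
-/

namespace Vale.Agent.P050.H226.EG

open Vale.Agent.P050.H936

/-- the path with `k + 1` edges -/
def path : ℕ → SP
  | 0 => .edge
  | k + 1 => .ser .edge (path k)

/-- the path with `a + b + 4` edges whose vertex at distance `a + 2` from the first end is doubled:
a path with `a + 1` edges, a 4-cycle entered and left in opposite vertices, a path with `b + 1`
edges -/
def dbl (a b : ℕ) : SP := .ser (path a) (.ser (.par (path 1) (path 1)) (path b))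

/-- the edges of a graph on `Fin n`, each taken once -/
abbrev Edges {n : ℕ} (J : SimpleGraph (Fin n)) : Type :=
  {p : Fin n × Fin n // J.Adj p.1 p.2 ∧ p.1 < p.2}

/-- `J` with every edge `u v` replaced by a path with `a u + a v + 4` edges; for the edges in `D`
the vertex at distance `a u + 2` from `u` is doubled -/
def sub {n : ℕ} (J : SimpleGraph (Fin n)) (a : Fin n → ℕ) (D : Finset (Edges J)) :
    SimpleGraph (Fin n ⊕ (Σ e : Edges J,
      (if e ∈ D then dbl (a e.1.1) (a e.1.2) else path (a e.1.1 + a e.1.2 + 3)).In)) :=
  spGraph (fun e : Edges J => e.1.1) (fun e : Edges J => e.1.2)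
    fun e => if e ∈ D then dbl (a e.1.1) (a e.1.2) else path (a e.1.1 + a e.1.2 + 3)

end Vale.Agent.P050.H226.EG
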