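import Vale.Agent.P050.H226.EG.Defs
import Vale.Agent.P050.H936.Final2
import Vale.Agent.P050.H692.Sub.Ker2
import Vale.Agent.P050.H869.Sub.Star2
import Vale.Agent.P050.H340.Sub.Sum2
import Vale.Agent.P050.H465.Sub.Graph2
import Vale.Agent.P050.H226.Sub2.Card

/-!
Every graph, its edges replaced by series-parallel parts.
-/

namespace Vale.Agent.P050.H226.EG

open Finset Vale.Agent.P050 Vale.Agent.P050.H936

theorem main : Final2Stmt :=
  final2 (H340.Sub.ent2_of H869.Sub.star2 H692.Sub.ker2 H23.gInf) H465.Sub2.graph2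
    H226.Sub2.card2

theorem path_len (k : ℕ) : (path k).len = k + 1 := by
  induction k with
  | zero => rfl
  | succ k ih => simp only [path, SP.len, ih]; omega

theorem path_ok (k : ℕ) : (path k).Ok := by
  induction k with
  | zero => trivial
  | succ k ih => exact ⟨trivial, ih⟩

theorem path_gain (μ k : ℕ) : (path k).gain μ = 0 := by
  induction k with
  | zero => rfl
  | succ k ih => simp only [path, SP.gain, ih]

theorem dbl_len (a b : ℕ) : (dbl a b).len = a + b + 4 := by
  simp only [dbl, SP.len, path_len]; omega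

theorem dbl_ok (a b : ℕ) : (dbl a b).Ok :=
  ⟨path_ok a, ⟨path_ok 1, path_ok 1, rfl, by rw [path_len]⟩, path_ok b⟩

theorem dbl_gain (a b μ : ℕ) (h : 2 ≤ μ) : (dbl a b).gain μ = 1 := by
  simp only [dbl, SP.gain, path_gain, path_len]
  rw [if_pos (by omega)]

theorem vert_le {n : ℕ} (J : SimpleGraph (Fin n)) (hJ : J.Connected) :
    n ≤ Nat.card (Edges J) + 1 := by
  classical
  have h1 := hJ.card_vert_le_card_edgeSet_add_one
  have h2 : Nat.card J.edgeSet ≤ Nat.card (Edges J) := by
    refine Nat.card_le_card_of_surjective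
      (fun p : Edges J => (⟨s(p.1.1, p.1.2), p.2.1⟩ : J.edgeSet)) ?_
    rintro ⟨e, he⟩
    induction e using Sym2.ind with
    | _ a b =>
      rcases lt_or_gt_of_ne (J.ne_of_adj he) with h | h
      · exact ⟨⟨(a, b), he, h⟩, rfl⟩
      · exact ⟨⟨(b, a), SimpleGraph.Adj.symm he, h⟩, Subtype.ext Sym2.eq_swap⟩
  rw [Nat.card_fin] at h1
  omega

theorem sub_main {n : ℕ} (J : SimpleGraph (Fin n)) (hE : Nonempty (Edges J)) (a : Fin n → ℕ)
    (D : Finset (Edges J)) (j : ℕ) (hD : n ≤ D.card + j + 2) (X : Type) [Fintype X] [Nonempty X]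
    (G : SimpleGraph X) : edgeDensity G ^ (Nat.card (sub J a D).edgeSet + 4 * j) ≤
      homDensity (sub J a D) G * homDensity (SimpleGraph.cycleGraph 4) G ^ j := by
  classical
  haveI : Fintype (Edges J) := Fintype.ofFinite _
  refine main (Fin n) (Edges J) _ _ (fun e => e.2.2.ne) (fun v => a v + 2) 2 le_rfl
    (fun v => by omega) _ (fun e => ?_) (fun e => ?_) j ?_ X G
  · split_ifs
    · exact dbl_ok _ _
    · exact path_ok _
  · split_ifs
    · rw [dbl_len]; omega
    · rw [path_len]; omega
  · have h1 : ∑ e : Edges J, (if e ∈ D then dbl (a e.1.1) (a e.1.2) else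
        path (a e.1.1 + a e.1.2 + 3)).gain 2 = D.card := by
      have h2 : ∀ e : Edges J, (if e ∈ D then dbl (a e.1.1) (a e.1.2) else
          path (a e.1.1 + a e.1.2 + 3)).gain 2 = if e ∈ D then 1 else 0 := by
        intro e
        split_ifs
        · exact dbl_gain _ _ _ le_rfl
        · exact path_gain _ _
      rw [Finset.sum_congr rfl fun e _ => h2 e]
      simp
    rw [h1, Fintype.card_fin]
    exact hD

theorem sub_conn {n : ℕ} (J : SimpleGraph (Fin n)) (hJ : J.Connected) (hn : 2 ≤ n)
    (a : Fin n → ℕ) (D : Finset (Edges J)) (hD : ∀ e, e ∈ D) (X : Type) [Fintype X] [Nonempty X]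
    (G : SimpleGraph X) : edgeDensity G ^ Nat.card (sub J a D).edgeSet ≤
      homDensity (sub J a D) G := by
  classical
  haveI : Fintype (Edges J) := Fintype.ofFinite _
  have h1 := vert_le J hJ
  have hu : D = Finset.univ := Finset.eq_univ_of_forall hD
  have h2 : D.card = Nat.card (Edges J) := by
    rw [hu, Finset.card_univ, Nat.card_eq_fintype_card]
  have hne : Nonempty (Edges J) := by
    by_contra h
    rw [not_nonempty_iff] at h
    rw [Nat.card_of_isEmpty] at h1
    omega
  have h3 := sub_main J hne a D 0 (by omega) X G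
  simpa using h3

end Vale.Agent.P050.H226.EG
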